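import Vale.Agent.P265.V.Defs
import Vale.Agent.P265.Defs

/-! Part V: Whitney embedding. PLAN. exists_par: ψ = ι ∘ ch.symm has injective derivative at u0 = ch p; choose a continuous linear left inverse ℓ (LinearMap.exists_leftInverse_of_injective, toContinuousLinearMap);
g = ℓ ∘ ψ has derivative id at u0; ContDiffAt.toOpenPartialHomeomorph / localInverse gives a local inverse; to get smoothness on an open set shrink to where fderiv g is invertible (OpenPartialHomeomorph.contDiffAt_symm at each point; ContinuousLinearEquiv.isOpen or det ≠ 0 or the unit ball around id).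
ρ = g⁻¹ ∘ ℓ; O = an open set with ι ⁻¹' O ⊆ ch.source ∩ ch ⁻¹' (small nbhd) (hι.isInducing.isOpen_iff) intersected with ℓ ⁻¹' (target of g). See Vale/Agent/P255 or P205/T/Imm for similar arguments.
exists_emb: exists_embedding_euclidean_of_compact; smoothness and injectivity in the chart through contMDiffOn_chart_symm (contMDiffOn_extChartAt_symm), mfderiv of e ∘ chart.symm = mfderiv e ∘ (invertible) (isInvertible_mfderivWithin_extChartAt_symm, or mdifferentiable_chart.symm.mfderiv_injective), mfderiv_eq_fderiv.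
loc_smooth: compose with the smooth map q ↦ (chart.symm q.1, q.2); contMDiffOn_iff_contDiffOn, modelWithCornersSelf_prod, chartedSpaceSelf_prod; or prove ContMDiffOn from 𝓘(ℝ, E × Rk k) directly with contMDiff_fst replaced by (contDiff_fst.contMDiff) and ContMDiffOn.prodMk. -/

open Set Topology Filter
open scoped ContDiff Manifold

noncomputable section
namespace Vale.Agent.P265.L

variable {Z B E : Type} [TopologicalSpace Z] [NormedAddCommGroup B] [NormedSpace ℝ B]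
  [NormedAddCommGroup E] [NormedSpace ℝ E]

theorem exists_par [FiniteDimensional ℝ B] [FiniteDimensional ℝ E] {ι : Z → B}
    (hι : IsEmbedding ι) (ch : OpenPartialHomeomorph Z E) {p : Z} (hp : p ∈ ch.source)
    (hs : ContDiffOn ℝ ∞ (ι ∘ ch.symm) ch.target)
    (hd : Function.Injective (fderiv ℝ (ι ∘ ch.symm) (ch p))) : ∃ c : Par E ι p, c.ch = ch := by
  have := FiniteDimensional.complete ℝ E
  obtain ⟨l, hl⟩ := LinearMap.exists_leftInverse_of_injective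
    (fderiv ℝ (ι ∘ ch.symm) (ch p) : E →ₗ[ℝ] B) (LinearMap.ker_eq_bot.2 hd)
  obtain ⟨ℓ, hℓ⟩ : ∃ ℓ : B →L[ℝ] E, ∀ v, ℓ (fderiv ℝ (ι ∘ ch.symm) (ch p) v) = v :=
    ⟨LinearMap.toContinuousLinearMap l, fun v => LinearMap.congr_fun hl v⟩
  have h0 := ch.map_source hp
  have hg : ContDiffOn ℝ ∞ (ℓ ∘ ι ∘ ch.symm) ch.target := ℓ.contDiff.comp_contDiffOn hs
  have hg' : ∀ u ∈ ch.target, ContDiffAt ℝ ∞ (ℓ ∘ ι ∘ ch.symm) u := fun u hu =>
    hg.contDiffAt (ch.open_target.mem_nhds hu)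
  have hD : HasFDerivAt (ℓ ∘ ι ∘ ch.symm) (ContinuousLinearEquiv.refl ℝ E : E →L[ℝ] E) (ch p) := by
    have k := ℓ.hasFDerivAt.comp (ch p)
      ((hs.contDiffAt (ch.open_target.mem_nhds h0)).differentiableAt (by simp)).hasFDerivAt
    convert k using 1
    ext v
    exact (hℓ v).symm
  obtain ⟨Φ, e, hΦ⟩ : ∃ Φ : OpenPartialHomeomorph E E, ⇑Φ = ℓ ∘ ι ∘ ch.symm ∧ ch p ∈ Φ.source :=
    ⟨(hg' _ h0).toOpenPartialHomeomorph _ hD (by simp), rfl,
      (hg' _ h0).mem_toOpenPartialHomeomorph_source hD (by simp)⟩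
  rw [← e] at hg hg' hD
  obtain ⟨U, hU, oU⟩ : ∃ U : Set E, U = (ch.target ∩ fderiv ℝ Φ ⁻¹'
      range ((↑) : (E ≃L[ℝ] E) → E →L[ℝ] E)) ∩ Φ.source ∧ IsOpen U :=
    ⟨_, rfl, ((hg.continuousOn_fderiv_of_isOpen ch.open_target (by simp)).isOpen_inter_preimage
      ch.open_target ContinuousLinearEquiv.isOpen).inter Φ.open_source⟩
  have pU : ch p ∈ U := by
    rw [hU]
    exact ⟨⟨h0, _, hD.fderiv.symm⟩, hΦ⟩
  have U1 : U ⊆ ch.target := fun u hu => (hU ▸ hu).1.1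
  have U2 : U ⊆ Φ.source := fun u hu => (hU ▸ hu).2
  have hv : ∀ y ∈ ch.source, ℓ (ι y) = Φ (ch y) := fun y hy => by
    rw [e, Function.comp_apply, Function.comp_apply, ch.left_inv hy]
  obtain ⟨O, oO, hO⟩ := hι.isInducing.isOpen_iff.1 (ch.isOpen_inter_preimage oU)
  refine ⟨⟨ch, O ∩ ℓ ⁻¹' (Φ.target ∩ Φ.symm ⁻¹' U), Φ.symm ∘ ℓ, hs,
    oO.inter ((Φ.isOpen_inter_preimage_symm oU).preimage ℓ.continuous), ⟨?_, ?_⟩,
    fun b hb => ?_, fun b hb => U1 hb.2.2, fun y hy => ?_⟩, rfl⟩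
  · show p ∈ ι ⁻¹' O
    rw [hO]
    exact ⟨hp, pU⟩
  · rw [mem_preimage, hv p hp]
    refine ⟨Φ.map_source hΦ, ?_⟩
    rw [mem_preimage, Φ.left_inv hΦ]
    exact pU
  · have k1 : Φ.symm (ℓ b) ∈ U := hb.2.2
    have k2 := hg' _ (U1 k1)
    obtain ⟨A, hA⟩ := (hU ▸ k1).1.2
    have k3 : HasFDerivAt Φ (A : E →L[ℝ] E) (Φ.symm (ℓ b)) :=
      hA ▸ (k2.differentiableAt (by simp)).hasFDerivAt
    exact ((Φ.contDiffAt_symm hb.2.1 k3 k2).comp b ℓ.contDiff.contDiffAt).contDiffWithinAt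
  · have k1 : y ∈ ι ⁻¹' O := hy.1
    rw [hO] at k1
    refine ⟨k1.1, ?_⟩
    rw [Function.comp_apply, hv y k1.1, Φ.left_inv (U2 k1.2)]

theorem Par.prod {ι : Z → B} {p : Z} (c : Par E ι p) {W : Type} [NormedAddCommGroup W]
    [NormedSpace ℝ W] (z : W) : ∃ c' : Par (E × W) (Prod.map ι (id : W → W)) (p, z),
      c'.ch = c.ch.prod (OpenPartialHomeomorph.refl W) :=
  ⟨⟨c.ch.prod (OpenPartialHomeomorph.refl W), c.O ×ˢ univ, Prod.map c.ρ id,
    c.sψ.prodMap contDiffOn_id, c.oO.prod isOpen_univ, ⟨c.mO, mem_univ _⟩,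
    c.sρ.prodMap contDiffOn_id, fun _ hb => ⟨c.mρ hb.1, mem_univ _⟩,
    fun y hy => ⟨⟨(c.inv y.1 hy.1).1, mem_univ _⟩, Prod.ext (c.inv y.1 hy.1).2 rfl⟩⟩, rfl⟩

variable [FiniteDimensional ℝ E] {M : Type} [TopologicalSpace M] [ChartedSpace E M]
  [IsManifold 𝓘(ℝ, E) ∞ M]

theorem exists_emb [T2Space M] [CompactSpace M] :
    ∃ (n : ℕ) (e : M → EuclideanSpace ℝ (Fin n)), IsClosedEmbedding e ∧
      ∀ x, ∃ c : Par E e x, c.ch = chartAt E x := by
  obtain ⟨n, e, h1, h2, h3⟩ := exists_embedding_euclidean_of_compact (I := 𝓘(ℝ, E)) (M := M)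
  refine ⟨n, e, h2, fun x => exists_par h2.isEmbedding _ (mem_chart_source E x)
    (h1.comp_contMDiffOn contMDiffOn_chart_symm).contDiffOn ?_⟩
  have k := h3 x
  rw [(h1.mdifferentiableAt (by simp)).mfderiv] at k
  simp only [writtenInExtChartAt, mfld_simps, fderivWithin_univ] at k
  exact k

omit [FiniteDimensional ℝ E] in
theorem loc_smooth {k : ℕ} {F : M × Rk k → ℝ}
    (hF : ContMDiff (𝓘(ℝ, E).prod 𝓘(ℝ, Rk k)) 𝓘(ℝ, ℝ) ∞ F) (x : M) :
    ContDiffOn ℝ ∞ (loc E F x) ((chartAt E x).target ×ˢ univ) := by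
  have h1 : ContMDiffOn 𝓘(ℝ, E × Rk k) 𝓘(ℝ, E) ∞ (fun q : E × Rk k => (chartAt E x).symm q.1)
      ((chartAt E x).target ×ˢ univ) :=
    contMDiffOn_chart_symm.comp contDiff_fst.contMDiff.contMDiffOn fun _ hq => hq.1
  exact (hF.comp_contMDiffOn (h1.prodMk contDiff_snd.contMDiff.contMDiffOn)).contDiffOn

end Vale.Agent.P265.L
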