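import Vale.Agent.P265.V.Flow
import Vale.Agent.P265.V.Tan

/-! Part V: invariance and linearity of the flow. PLAN. inv_loc: c = par at y, ψ = ι ∘ ch.symm, v u = fderiv ρ (ψ u) (V (ψ u)) is C^1 near ch y. For u near ch y, D u (v u) = V (ψ u): V (ψ u) = D u w by tan_iff and fderiv ρ (ψ u) (D u w) = w because ρ ∘ ψ = id near u.
A local integral curve γ of v (ContDiffAt.exists_forall_mem_closedBall_exists_eq_forall_mem_Ioo_hasDerivAt₀ or Vale.Agent.P255 exists_flow) gives the integral curve ψ ∘ γ of V; lip_unique. flow_restrict: {t | Φ t (ι y) ∈ range ι} is closed, open (inv_loc, Flow.map_add) and contains 0 (isClopen_iff, or IsClopen.eq_univ);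
define φ t y by choice; continuity by hι.isInducing.continuous_iff; the flow laws by injectivity. -/

open Set Topology Filter
open scoped ContDiff

noncomputable section
namespace Vale.Agent.P265.L

variable {Z B E : Type} [TopologicalSpace Z] [NormedAddCommGroup B] [NormedSpace ℝ B]
  [NormedAddCommGroup E] [NormedSpace ℝ E] {ι : Z → B} {V : B → B} {K : NNReal}

theorem vinv_field {p : Z} (c : Par E ι p) (ht : ∀ y, V (ι y) ∈ Tan ι y) {u : E}
    (hu : u ∈ c.ch.target) (hO : ι (c.ch.symm u) ∈ c.O) :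
    c.D u (fderiv ℝ c.ρ (ι (c.ch.symm u)) (V (ι (c.ch.symm u)))) = V (ι (c.ch.symm u)) := by
  obtain ⟨w, hw⟩ := (c.tan_iff hO).1 (ht _)
  rw [c.ch.right_inv hu] at hw
  have d1 := (c.sψ.contDiffAt (c.ch.open_target.mem_nhds hu)).differentiableAt (by simp)
  have d2 := (c.sρ.contDiffAt (c.oO.mem_nhds hO)).differentiableAt (by simp)
  have ev : c.ρ ∘ (ι ∘ c.ch.symm) =ᶠ[𝓝 u] id := by
    filter_upwards [c.ch.open_target.mem_nhds hu, d1.continuousAt (c.oO.mem_nhds hO)] with v h1 h2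
    exact (c.inv _ h2).2.trans (c.ch.right_inv h1)
  have e := ev.fderiv_eq (𝕜 := ℝ)
  rw [fderiv_comp u d2 d1, fderiv_id] at e
  have e' : fderiv ℝ c.ρ (ι (c.ch.symm u)) (c.D u w) = w := congrArg (fun L : E →L[ℝ] E => L w) e
  rw [hw, e']

theorem inv_loc [FiniteDimensional ℝ E] (hι : Continuous ι) {y : Z} (c : Par E ι y)
    (hV : ContDiff ℝ ∞ V) (hK : LipschitzWith K V) (ht : ∀ y, V (ι y) ∈ Tan ι y) {f : ℝ → B}
    (hf : ∀ t, HasDerivAt f (V (f t)) t) (h0 : f 0 = ι y) : ∀ᶠ t in 𝓝 0, f t ∈ range ι := by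
  have : CompleteSpace E := FiniteDimensional.complete ℝ E
  have hy := (c.inv y c.mO).1
  have hu := c.ch.map_source hy
  have e0 : (ι ∘ c.ch.symm) (c.ch y) = ι y := congrArg ι (c.ch.left_inv hy)
  have s1 : ContDiffAt ℝ 1 (ι ∘ c.ch.symm) (c.ch y) :=
    (c.sψ.contDiffAt (c.ch.open_target.mem_nhds hu)).of_le (by simp)
  have s2 : ContDiffAt ℝ 1 (fun b => fderiv ℝ c.ρ b (V b)) ((ι ∘ c.ch.symm) (c.ch y)) := by
    rw [e0]
    exact ((c.sρ.contDiffAt (c.oO.mem_nhds c.mO)).fderiv_right (m := 1) (by norm_cast)).clm_apply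
      (hV.contDiffAt.of_le (by simp))
  obtain ⟨α, a0, ε, ε0, hα⟩ :=
    (s2.comp _ s1).exists_forall_mem_closedBall_exists_eq_forall_mem_Ioo_hasDerivAt₀ 0
  have m0 : Ioo (0 - ε) (0 + ε) ∈ 𝓝 (0 : ℝ) := Ioo_mem_nhds (by linarith) (by linarith)
  have ca : Tendsto α (𝓝 0) (𝓝 (c.ch y)) := a0 ▸ (hα 0 (mem_of_mem_nhds m0)).continuousAt
  have m1 : ∀ᶠ u in 𝓝 (c.ch y), u ∈ c.ch.target ∧ ι (c.ch.symm u) ∈ c.O :=
    Eventually.and (c.ch.open_target.mem_nhds hu) (s1.continuousAt (c.oO.mem_nhds (e0 ▸ c.mO)))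
  obtain ⟨a, b, hab, hs⟩ := mem_nhds_iff_exists_Ioo_subset.1 (Eventually.and m0 (ca.eventually m1))
  have key := lip_unique hK (f := f) (g := fun t => ι (c.ch.symm (α t))) hab (fun t _ => hf t)
    (fun t h => by
      obtain ⟨h1, h2, h3⟩ := hs h
      have d := ((c.sψ.contDiffAt (c.ch.open_target.mem_nhds h2)).differentiableAt
        (by simp)).hasFDerivAt.comp_hasDerivAt t (hα t h1)
      exact HasDerivAt.congr_deriv d (vinv_field c ht h2 h3))
    (by rw [h0, a0]; exact e0.symm)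
  filter_upwards [isOpen_Ioo.mem_nhds hab] with t h
  exact ⟨_, (key h).symm⟩

theorem flow_restrict [FiniteDimensional ℝ E] (hι : IsClosedEmbedding ι) (par : ∀ p, Par E ι p)
    (hV : ContDiff ℝ ∞ V) (hK : LipschitzWith K V) (ht : ∀ y, V (ι y) ∈ Tan ι y) (Φ : Flow ℝ B)
    (hΦ : ∀ b t, HasDerivAt (fun s => Φ s b) (V (Φ t b)) t) :
    ∃ φ : Flow ℝ Z, ∀ t y, ι (φ t y) = Φ t (ι y) := by
  have all : ∀ t y, Φ t (ι y) ∈ range ι := by
    intro t y
    have cl : IsClopen {t : ℝ | Φ t (ι y) ∈ range ι} := by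
      refine ⟨hι.isClosed_range.preimage (Φ.continuous continuous_id continuous_const),
        isOpen_iff_mem_nhds.2 fun t0 ⟨y', hy'⟩ => ?_⟩
      have h := inv_loc hι.continuous (par y') hV hK ht (hΦ (ι y')) (Φ.map_zero_apply _)
      have tz : Tendsto (fun t : ℝ => t - t0) (𝓝 t0) (𝓝 0) :=
        (continuous_sub_right t0).tendsto' _ _ (sub_self _)
      filter_upwards [tz.eventually h] with t h'
      rwa [hy', ← Φ.map_add, sub_add_cancel] at h'
    exact (cl.eq_univ ⟨0, y, (Φ.map_zero_apply _).symm⟩).ge (mem_univ t)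
  choose φ hφ using all
  refine ⟨⟨φ, hι.isInducing.continuous_iff.2 ?_, fun t s y => hι.injective ?_,
    fun y => hι.injective ?_⟩, hφ⟩
  · exact (Φ.continuous continuous_fst (hι.continuous.comp continuous_snd)).congr
      fun q => (hφ q.1 q.2).symm
  · rw [hφ, hφ, hφ, Φ.map_add]
  · rw [hφ, Φ.map_zero_apply]

end Vale.Agent.P265.L
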